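import Vale.Agent.P011.D4X.H408.Top
import Vale.Agent.P011.D4X.H69.NearGen

/-!
Block D4Z: density of `Rs` in `GT` at the bad real places (openness implies that there is no
subgroup of finite index).  Families of complex matrices.
-/

open Topology

namespace Vale.Agent.P011.D4Z

open Vale.Agent.P011.MPQ Vale.Agent.P011.D4 Vale.Agent.P011.D4.Oct Vale.Agent.P011.D4X
open scoped ComplexConjugate

section coord

variable {F : Type} [Field F] {a b c : Fˣ}

/-- The octonion with given coordinates. -/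
def of8 (v : Fin 8 → F) : Oct a b c := ⟨⟨v 0, v 1, v 2, v 3⟩, ⟨v 4, v 5, v 6, v 7⟩⟩

theorem co8_of8 (v : Fin 8 → F) : co8 (of8 v : Oct a b c) = v := by
  funext i; fin_cases i <;> rfl

theorem of8_co8 (x : Oct a b c) : of8 (co8 x) = x := rfl

theorem of8_add (v w : Fin 8 → F) : (of8 (v + w) : Oct a b c) = of8 v + of8 w := by
  ext1 <;> rfl

theorem of8_smul (t : F) (v : Fin 8 → F) : (of8 (t • v) : Oct a b c) = t • of8 v := by
  ext1 <;> rfl

theorem co8_add (x y : Oct a b c) : co8 (x + y) = co8 x + co8 y := by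
  funext i; fin_cases i <;> rfl

theorem co8_smul (t : F) (x : Oct a b c) : co8 (t • x) = t • co8 x := by
  funext i; fin_cases i <;> rfl

/-- The linear map of a matrix. -/
def act (M : Matrix (Fin 8) (Fin 8) F) : Oct a b c →ₗ[F] Oct a b c where
  toFun x := of8 (M.mulVec (co8 x))
  map_add' x y := by rw [co8_add, Matrix.mulVec_add, of8_add]
  map_smul' t x := by rw [co8_smul, Matrix.mulVec_smul, of8_smul, RingHom.id_apply]

theorem act_apply (M : Matrix (Fin 8) (Fin 8) F) (x : Oct a b c) :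
    act M x = of8 (M.mulVec (co8 x)) := rfl

theorem act_mul (M N : Matrix (Fin 8) (Fin 8) F) (x : Oct a b c) :
    act (M * N) x = act M (act N x) := by
  rw [act_apply, act_apply, act_apply, co8_of8, Matrix.mulVec_mulVec]

theorem act_one (x : Oct a b c) : act 1 x = x := by
  rw [act_apply, Matrix.one_mulVec, of8_co8]

theorem act_inj {M N : Matrix (Fin 8) (Fin 8) F}
    (h : ∀ x : Oct a b c, act M x = act N x) : M = N := by
  ext i j
  have h1 := congrArg (fun x => co8 x i) (h (of8 (Pi.single j 1)))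
  simpa only [act_apply, co8_of8, Matrix.mulVec_single_one, Matrix.col_apply] using h1

end coord

section fam

variable {k E : Type} [Field k] [Field E] [Algebra k E] {a b c : kˣ}

/-- The matrix of a linear map at the embedding `W`. -/
def matW (W : E →+* ℂ) (g : OctL E a b c → OctL E a b c) : Matrix (Fin 8) (Fin 8) ℂ :=
  fun i j => W (co8 (g (of8 (Pi.single j 1))) i)

/-- The matrices of a linear map at the embeddings in `S`. -/
def mat (S : Set (E →+* ℂ)) (g : OctL E a b c → OctL E a b c) :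
    S → Matrix (Fin 8) (Fin 8) ℂ := fun W => matW W.1 g

variable [Algebra k ℂ]

/-- The value of an octonion at an embedding. -/
noncomputable def ev (W : E →ₐ[k] ℂ) (x : OctL E a b c) : OctL ℂ a b c := of8 fun i => W (co8 x i)

/-- The embedding `W ∘ ρ`. -/
def cmp (W : E →ₐ[k] ℂ) (ρ : E ≃ₐ[k] E) : E →ₐ[k] ℂ := W.comp (ρ : E →ₐ[k] E)

/-- The orthogonal reflection. -/
noncomputable def refl (e x : OctL ℂ a b c) : OctL ℂ a b c := x - (bil x e / Oct.norm e) • e

end fam

section real

variable {k L E : Type} [Field k] [Field L] [Field E] [Algebra k E] [Algebra L E]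
  {a b c : kˣ} [Algebra k ℂ]

/-- The complex conjugation of the coordinates. -/
noncomputable def cj (x : OctL ℂ a b c) : OctL ℂ a b c := of8 fun i => conj (co8 x i)

/-- The semilinear map `J` at the embedding `W`. -/
noncomputable def JW (W : E →ₐ[k] ℂ) (ρ : E ≃ₐ[k] E) (α : E) (q : Lˣ) (x : OctL ℂ a b c) :
    OctL ℂ a b c :=
  ⟨mq a b (W α) (W (algebraMap L E q)) * (cj x).fst *
      mq a b (W α) (W (algebraMap L E q) * W (ρ (algebraMap L E q))),
    (cj x).snd * (mq a b (W α) (W (algebraMap L E q)) *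
      star (mq a b (W α) (W (algebraMap L E q) * W (ρ (algebraMap L E q)))))⟩

/-- The real form at `W`: `J x = √r x`, `r = q² ρ(q)`. -/
def VR (W : E →ₐ[k] ℂ) (ρ : E ≃ₐ[k] E) (α : E) (q : Lˣ) : Set (OctL ℂ a b c) :=
  {x | JW W ρ α q x = (Real.sqrt (W (algebraMap L E q * (algebraMap L E q *
    ρ (algebraMap L E q)))).re : ℂ) • x}

/-- The four dimensional blocks. -/
def Blk (x y : OctL ℂ a b c) : Prop :=
  (x.snd = 0 ∧ y.snd = 0) ∨ (x.fst = 0 ∧ y.fst = 0) ∨
    ((x.fst.re = 0 ∧ x.fst.imI = 0 ∧ x.snd.imJ = 0 ∧ x.snd.imK = 0) ∧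
      (y.fst.re = 0 ∧ y.fst.imI = 0 ∧ y.snd.imJ = 0 ∧ y.snd.imK = 0))

/-- Coordinatewise complex conjugation of a quaternion. -/
noncomputable def cjq {A B : ℂˣ} (x : Qt A B) : Qt A B :=
  ⟨conj x.re, conj x.imI, conj x.imJ, conj x.imK⟩

/-- `X` is in the real form attached to the value `t` of `q`. -/
def RQ (a b : kˣ) (α t : ℂ) (X : Qt (up ℂ a) (up ℂ b)) : Prop :=
  mq a b α t * cjq X = X * mq a b α t

end real

section cl

variable {k E : Type} [Field k] [Field E] [Algebra k E] {a b c : kˣ}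

/-- The closure of the set of the families of a subgroup. -/
def cl (S : Set (E →+* ℂ)) (G : Subgroup (OctL E a b c ≃ₗ[E] OctL E a b c)) :
    Set (S → Matrix (Fin 8) (Fin 8) ℂ) := closure {X | ∃ z ∈ G, X = mat S z}

/-- The closure of the families of `G g`. -/
def clg (S : Set (E →+* ℂ)) (G : Subgroup (OctL E a b c ≃ₗ[E] OctL E a b c))
    (g : OctL E a b c ≃ₗ[E] OctL E a b c) : Set (S → Matrix (Fin 8) (Fin 8) ℂ) :=
  closure {X | ∃ z ∈ G, X = mat S (z * g : OctL E a b c ≃ₗ[E] OctL E a b c)}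

end cl

end Vale.Agent.P011.D4Z
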