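import Vale.Agent.P011.D4Z.Defs
import Vale.Agent.P011.D4X.H691.Top

/-! Block D4Z: literals (nobody imports this file). -/

open Topology NumberField

namespace Vale.Agent.P011.D4Z.Spec

open Vale.Agent.P011.MPQ Vale.Agent.P011.D4 Vale.Agent.P011.D4.Oct Vale.Agent.P011.D4X
open Vale.Agent.P011.E6
open scoped ComplexConjugate

variable {k L E : Type} [Field k] [NumberField k] [Field L] [NumberField L] [Field E]
  [NumberField E] [Algebra k L] [Algebra k E] [Algebra L E]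
  [IsScalarTower k L E] [NeZero (2 : E)] {ρ σ : E ≃ₐ[k] E} {ρL : L ≃ₐ[k] L} {α : E}
  {a b c : kˣ} {q : Lˣ} (H : Hy ρ σ ρL α a b c q)

/- T2 (637): `mat`, `cl`, `clg`; `X ∈ cl S G`, `Y ∈ clg S G g` imply `X * Y ∈ clg S G g`;
`g ∈ GT`, `Y ∈ clg (Bd ρ σ q) (Rs ..) g` satisfies the relations: -/

/-- T2: isometry. -/
theorem clg_bil [Algebra k ℂ] (W : E →ₐ[k] ℂ) (hW : (W : E →+* ℂ) ∈ Bd ρ σ q)
    {g : OctL E a b c ≃ₗ[E] OctL E a b c} (hg : g ∈ GT ρ σ α a b c q)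
    {Y : Bd ρ σ q → Matrix (Fin 8) (Fin 8) ℂ}
    (hY : Y ∈ clg (Bd ρ σ q) (Rs ρ σ α a b c q) g) (x y : OctL ℂ a b c) :
    bil (act (Y ⟨W, hW⟩) x) (act (Y ⟨W, hW⟩) y) = bil x y := sorry

/-- T2: `J`. -/
theorem clg_J [Algebra k ℂ] (W : E →ₐ[k] ℂ) (hW : (W : E →+* ℂ) ∈ Bd ρ σ q)
    {g : OctL E a b c ≃ₗ[E] OctL E a b c} (hg : g ∈ GT ρ σ α a b c q)
    {Y : Bd ρ σ q → Matrix (Fin 8) (Fin 8) ℂ}
    (hY : Y ∈ clg (Bd ρ σ q) (Rs ρ σ α a b c q) g) (x : OctL ℂ a b c) :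
    act (Y ⟨W, hW⟩) (JW W ρ α q x) = JW W ρ α q (act (Y ⟨W, hW⟩) x) := sorry

/-- T2: triality. -/
theorem clg_tri [Algebra k ℂ] (W W' W'' : E →ₐ[k] ℂ) (hW : (W : E →+* ℂ) ∈ Bd ρ σ q)
    (hW' : (W' : E →+* ℂ) ∈ Bd ρ σ q) (hW'' : (W'' : E →+* ℂ) ∈ Bd ρ σ q)
    (h' : W' = cmp W ρ) (h'' : W'' = cmp W' ρ)
    {g : OctL E a b c ≃ₗ[E] OctL E a b c} (hg : g ∈ GT ρ σ α a b c q)
    {Y : Bd ρ σ q → Matrix (Fin 8) (Fin 8) ℂ}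
    (hY : Y ∈ clg (Bd ρ σ q) (Rs ρ σ α a b c q) g) (x y : OctL ℂ a b c) :
    act (Y ⟨W, hW⟩) (star x * star y) =
      star (act (Y ⟨W', hW'⟩) x) * star (act (Y ⟨W'', hW''⟩) y) := sorry

/-- T2: the end. -/
theorem mem_of_one (hX : ∀ w : L →+* ℝ, w (algebraMap k L a) < 0 →
      w (algebraMap k L b) < 0 ∧ w (algebraMap k L c) < 0)
    {g : OctL E a b c ≃ₗ[E] OctL E a b c} (hg : g ∈ GT ρ σ α a b c q)
    (h1 : (1 : Bd ρ σ q → Matrix (Fin 8) (Fin 8) ℂ) ∈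
      clg (Bd ρ σ q) (Rs ρ σ α a b c q) g) : g ∈ Rs ρ σ α a b c q := sorry

/-- T3b (x part): three quaternions of norm one in the real forms at `W`, `W ρ`, `W ρ²`, for any
trip. -/
theorem zlim_x (hX : ∀ w : L →+* ℝ, w (algebraMap k L a) < 0 →
      w (algebraMap k L b) < 0 ∧ w (algebraMap k L c) < 0)
    [Algebra k ℂ] (W W' W'' : E →ₐ[k] ℂ) (hW : (W : E →+* ℂ) ∈ Bd ρ σ q)
    (hW' : (W' : E →+* ℂ) ∈ Bd ρ σ q) (hW'' : (W'' : E →+* ℂ) ∈ Bd ρ σ q)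
    (h' : W' = cmp W ρ) (h'' : W'' = cmp W' ρ)
    {b' c' : kˣ} {j l : Oct a b c} (h : Trip a b' c' gi j l) [NeZero (2 : ℂ)]
    {X1 X2 X3 : Qt (up ℂ a) (up ℂ b')} (n1 : nrd X1 = 1) (n2 : nrd X2 = 1) (n3 : nrd X3 = 1)
    (r1 : RQ a b' (W α) (W (algebraMap L E q)) X1)
    (r2 : RQ a b' (W α) (W' (algebraMap L E q)) X2)
    (r3 : RQ a b' (W α) (W'' (algebraMap L E q)) X3) :
    ∃ X ∈ cl (Bd ρ σ q) (Rs ρ σ α a b c q),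
      (∀ y : OctL ℂ a b' c', act (X ⟨W, hW⟩) (tripO ℂ h y) =
        tripO ℂ h ⟨X1 * y.fst * star X3, y.snd * star X2⟩) ∧
      (∀ y : OctL ℂ a b' c', act (X ⟨W', hW'⟩) (tripO ℂ h y) =
        tripO ℂ h ⟨X2 * y.fst * star X1, y.snd * star X3⟩) ∧
      (∀ y : OctL ℂ a b' c', act (X ⟨W'', hW''⟩) (tripO ℂ h y) =
        tripO ℂ h ⟨X3 * y.fst * star X2, y.snd * star X1⟩) ∧
      ∀ V : Bd ρ σ q, V.1.comp (algebraMap k E) ≠ algebraMap k ℂ → X V = 1 := sorry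

/-- T3b (x₀ part). -/
theorem zlim_0 (hX : ∀ w : L →+* ℝ, w (algebraMap k L a) < 0 →
      w (algebraMap k L b) < 0 ∧ w (algebraMap k L c) < 0)
    [Algebra k ℂ] (W : E →ₐ[k] ℂ) (hW : (W : E →+* ℂ) ∈ Bd ρ σ q)
    {b' c' : kˣ} {j l : Oct a b c} (h : Trip a b' c' gi j l) [NeZero (2 : ℂ)]
    {X0 : Qt (up ℂ a) (up ℂ b')} (n0 : nrd X0 = 1) (r0 : cjq X0 = X0) :
    ∃ X ∈ cl (Bd ρ σ q) (Rs ρ σ α a b c q),
      (∀ y : OctL ℂ a b' c', act (X ⟨W, hW⟩) (tripO ℂ h y) = tripO ℂ h ⟨y.fst, X0 * y.snd⟩) ∧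
      ∀ V : Bd ρ σ q, V.1.comp (algebraMap k E) ≠ algebraMap k ℂ → X V = 1 := sorry

/-- T3c: the block moves are products of two reflections. -/
theorem blk_mem (hX : ∀ w : L →+* ℝ, w (algebraMap k L a) < 0 →
      w (algebraMap k L b) < 0 ∧ w (algebraMap k L c) < 0)
    [Algebra k ℂ] (W : E →ₐ[k] ℂ) (hW : (W : E →+* ℂ) ∈ Bd ρ σ q)
    (hq : (W (algebraMap L E q)).re < 0) (hq' : 0 < (W (ρ (algebraMap L E q))).re)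
    {e e' : OctL ℂ a b c} (he : e ∈ VR W ρ α q) (he' : e' ∈ VR W ρ α q) (hB : Blk e e')
    (hN : Oct.norm e' = Oct.norm e) (h0 : Oct.norm e ≠ 0) :
    ∃ X ∈ cl (Bd ρ σ q) (Rs ρ σ α a b c q),
      (∀ y : OctL ℂ a b c, act (X ⟨W, hW⟩) y = refl e' (refl e y)) ∧
      ∀ V : Bd ρ σ q, V.1.comp (algebraMap k E) ≠ algebraMap k ℂ → X V = 1 := sorry

/-- T4: real coordinates of `VR`. -/
theorem exists_basis [Algebra k ℂ] (W : E →ₐ[k] ℂ) (hW : (W : E →+* ℂ) ∈ Bd ρ σ q)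
    (hq : (W (algebraMap L E q)).re < 0) (hq' : 0 < (W (ρ (algebraMap L E q))).re)
    (hc : ∀ w : L →+* ℝ, w (algebraMap k L a) < 0 →
      w (algebraMap k L b) < 0 ∧ w (algebraMap k L c) < 0) :
    ∃ e : Fin 8 → OctL ℂ a b c, (∀ i, e i ∈ VR W ρ α q) ∧
      (∀ i j, bil (e i) (e j) = if i = j then (if i = 0 ∨ i = 1 then 2 else -2) else 0) ∧
      (∀ y ∈ VR W ρ α q, ∃ v : Fin 8 → ℝ, y = ∑ i, (v i : ℂ) • e i) ∧
      (∀ y : OctL ℂ a b c, ∃ v : Fin 8 → ℂ, y = ∑ i, v i • e i) ∧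
      (∀ i, i ∈ ({0, 1, 2, 3} : Finset (Fin 8)) → (e i).snd = 0) ∧
      (∀ i, i ∈ ({4, 5, 6, 7} : Finset (Fin 8)) → (e i).fst = 0) ∧
      (∀ i, i ∈ ({2, 3, 4, 5} : Finset (Fin 8)) → (e i).fst.re = 0 ∧ (e i).fst.imI = 0 ∧
        (e i).snd.imJ = 0 ∧ (e i).snd.imK = 0) := sorry

/-- The goal. -/
theorem gt_top (hX : ∀ w : L →+* ℝ, w (algebraMap k L a) < 0 →
      w (algebraMap k L b) < 0 ∧ w (algebraMap k L c) < 0) :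
    GT ρ σ α a b c q ≤ Rs ρ σ α a b c q := sorry

end Vale.Agent.P011.D4Z.Spec
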